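import Vale.Agent.P167.N.Kit
import Vale.Agent.P167.H601.LG.Trig

/-!
# P167, `0 < q < 1`, block Q-LAM (LG): trigonometry of the weights

For `0 ≤ K ≤ 2` the weights `sin (2 θ - θ / 2 * K)` and `sin (θ + θ / 2 * K)` are positive for every
`θ < π / 2`; for `K = -1, 3` they are positive only if `θ < 2 π / 5`.
-/

set_option autoImplicit false

namespace Vale.Agent.P167.N.H601.LG

open Vale.Agent.P167.H601.LG Vale.Agent.P167.H601

open Real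

variable {θ : ℝ}

theorem sin_pos' (h0 : 0 < θ) (h1 : Ang θ) : 0 < sin θ :=
  sin_pos_of_pos_of_lt_pi h0 (by have := pi_pos; linarith [h1.lt])

theorem sin2_pos (h0 : 0 < θ) (h1 : Ang θ) : 0 < sin (2 * θ) :=
  sin_pos_of_pos_of_lt_pi (by linarith) (by have := pi_pos; linarith [h1.lt])

/-- Closed strands, turning between `0` and `2`. -/
theorem cl_pos (h0 : 0 < θ) (h1 : Ang θ) {K : ℤ} (hK0 : 0 ≤ K) (hK1 : K ≤ 2) :
    0 < sin (2 * θ - θ / 2 * K) := by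
  have h1_lt := h1.lt
  have e0 : (0 : ℝ) ≤ K := by exact_mod_cast hK0
  have e1 : (K : ℝ) ≤ 2 := by exact_mod_cast hK1
  have := pi_pos
  refine sin_pos_of_pos_of_lt_pi ?_ ?_ <;> nlinarith

/-- Other strands, turning between `0` and `2`. -/
theorem ot_pos (h0 : 0 < θ) (h1 : Ang θ) {K : ℤ} (hK0 : 0 ≤ K) (hK1 : K ≤ 2) :
    0 < sin (θ + θ / 2 * K) := by
  have h1_lt := h1.lt
  have e0 : (0 : ℝ) ≤ K := by exact_mod_cast hK0
  have e1 : (K : ℝ) ≤ 2 := by exact_mod_cast hK1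
  have := pi_pos
  refine sin_pos_of_pos_of_lt_pi ?_ ?_ <;> nlinarith

/-- Closed strands, turning between `-1` and `3`, for `θ < 2 π / 5`. -/
theorem cl_pos5 (h0 : 0 < θ) (h5 : 5 * θ < 2 * π) {K : ℤ} (hK0 : -1 ≤ K) (hK1 : K ≤ 3) :
    0 < sin (2 * θ - θ / 2 * K) := by
  have e0 : (-1 : ℝ) ≤ K := by exact_mod_cast hK0
  have e1 : (K : ℝ) ≤ 3 := by exact_mod_cast hK1
  have := pi_pos
  refine sin_pos_of_pos_of_lt_pi ?_ ?_ <;> nlinarith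

/-- Other strands, turning between `-1` and `3`, for `θ < 2 π / 5`. -/
theorem ot_pos5 (h0 : 0 < θ) (h5 : 5 * θ < 2 * π) {K : ℤ} (hK0 : -1 ≤ K) (hK1 : K ≤ 3) :
    0 < sin (θ + θ / 2 * K) := by
  have e0 : (-1 : ℝ) ≤ K := by exact_mod_cast hK0
  have e1 : (K : ℝ) ≤ 3 := by exact_mod_cast hK1
  have := pi_pos
  refine sin_pos_of_pos_of_lt_pi ?_ ?_ <;> nlinarith

/-- A common positive lower bound over a finite interval of turnings. -/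
theorem exists_low_of (a b : ℤ) (ha : a ≤ 0) (hb : 0 ≤ b) (hs1 : 0 < sin θ) (hs2 : 0 < sin (2 * θ))
    (hc : ∀ K : ℤ, a ≤ K → K ≤ b → 0 < sin (2 * θ - θ / 2 * K))
    (ho : ∀ K : ℤ, a ≤ K → K ≤ b → 0 < sin (θ + θ / 2 * K)) : ∃ c : ℝ, 0 < c ∧ c ≤ 1 ∧
    ∀ K : ℤ, a ≤ K → K ≤ b →
      c ≤ sin (2 * θ - θ / 2 * K) / sin (2 * θ) ∧ c ≤ sin (θ + θ / 2 * K) / sin θ := by
  obtain ⟨K, hK, hmin⟩ := (Finset.Icc a b).exists_min_image
    (fun K : ℤ => min (sin (2 * θ - θ / 2 * K) / sin (2 * θ)) (sin (θ + θ / 2 * K) / sin θ))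
    ⟨0, Finset.mem_Icc.2 ⟨ha, hb⟩⟩
  rw [Finset.mem_Icc] at hK
  refine ⟨min (sin (2 * θ - θ / 2 * K) / sin (2 * θ)) (sin (θ + θ / 2 * K) / sin θ),
    lt_min (div_pos (hc K hK.1 hK.2) hs2) (div_pos (ho K hK.1 hK.2) hs1), ?_, ?_⟩
  · have h := hmin 0 (Finset.mem_Icc.2 ⟨ha, hb⟩)
    refine (h.trans (min_le_left _ _)).trans ?_
    rw [Int.cast_zero, mul_zero, sub_zero, div_self hs2.ne']
  · intro L hL0 hL1
    have h := hmin L (Finset.mem_Icc.2 ⟨hL0, hL1⟩)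
    exact ⟨h.trans (min_le_left _ _), h.trans (min_le_right _ _)⟩

/-- **Lower bounds for the weights**, turning between `0` and `2`. -/
theorem exists_low (h0 : 0 < θ) (h1 : Ang θ) : ∃ c : ℝ, 0 < c ∧ c ≤ 1 ∧ ∀ K : ℤ, 0 ≤ K →
    K ≤ 2 → c ≤ sin (2 * θ - θ / 2 * K) / sin (2 * θ) ∧ c ≤ sin (θ + θ / 2 * K) / sin θ :=
  exists_low_of 0 2 le_rfl (by norm_num) (sin_pos' h0 h1) (sin2_pos h0 h1)
    (fun _ => cl_pos h0 h1) (fun _ => ot_pos h0 h1)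

/-- **Lower bounds for the weights**, turning between `-1` and `3`, for `θ < 2 π / 5`. -/
theorem exists_low5 (h0 : 0 < θ) (h1 : Ang θ) (h5 : 5 * θ < 2 * π) : ∃ c : ℝ, 0 < c ∧ c ≤ 1 ∧
    ∀ K : ℤ, -1 ≤ K → K ≤ 3 →
      c ≤ sin (2 * θ - θ / 2 * K) / sin (2 * θ) ∧ c ≤ sin (θ + θ / 2 * K) / sin θ :=
  exists_low_of (-1) 3 (by norm_num) (by norm_num) (sin_pos' h0 h1) (sin2_pos h0 h1)
    (fun _ => cl_pos5 h0 h5) (fun _ => ot_pos5 h0 h5)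

end Vale.Agent.P167.N.H601.LG
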