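import Vale.Agent.P167.N.Kit
import Vale.Agent.P167.N.H601.LG.Trig
import Vale.Agent.P167.H601.LG.Wt

/-! generated from Vale.Agent.P167.H601.LG.Wt (q < 1 port) -/

set_option autoImplicit false

namespace Vale.Agent.P167.N.H601.LG

open Vale.Agent.P167.H601.LG Vale.Agent.P167.H601

open Finset

open Vale.Agent.P167.E6 (IsPolygon Encloses dir face)

open Vale.Agent.P167.BR

open Vale.Agent.P167.QX (lo hi lo_xy hi_xy exists_xy wB)

open Vale.Agent.P167.H718 (IsXY IsCl rc)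

variable {N : ℕ} {q : ZMod N → ℤ × ℤ} {D : Finset (ℤ × ℤ)} {ω : Cfg} {A : Finset Ed} {τ : ℕ → ℤ}
  {n k : ℕ} {θ β : ℝ}

/-- **Upper bound.** -/
theorem abs_wJ_le (h0 : 0 < θ) (h1 : Ang θ) (hq : IsPolygon q) (hD : Encloses q D)
    (hA : A ∈ pcs ω D) : |wJ θ β q D k τ A| ≤ 1 / Real.sin θ + 1 / Real.sin (2 * θ) := by
  have h1_lt := h1.lt
  have hs1 := sin_pos' h0 h1
  have hs2 := sin2_pos h0 h1
  have e1 : 0 < 1 / Real.sin θ := by positivity
  have e2 : 0 < 1 / Real.sin (2 * θ) := by positivity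
  have hc : 0 < Real.cos θ := Real.cos_pos_of_mem_Ioo ⟨by linarith [Real.pi_pos], by
    linarith [Real.pi_pos]⟩
  by_cases hl : IsLp D A
  · rw [wJ_lp hq hD hA hl hc.ne', abs_one]
    have h3 : 1 ≤ 1 / Real.sin θ := by
      rw [le_div_iff₀ hs1, one_mul]
      exact Real.sin_le_one _
    linarith
  · have h := (feet hq hD hA hl).1.le
    by_cases hF : lo q A < k ∧ k ≤ hi q A
    · rw [wJ_fw hl hF]
      exact (abs_div_le' hs1 _).trans (by linarith)
    · by_cases hC : IsCl D q k A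
      · rw [wJ_cl hl h hF hC]
        exact (abs_div_le hs2 _).trans (by linarith)
      · rw [wJ_ot hl h hF hC]
        exact (abs_div_le hs1 _).trans (by linarith)

/-- Strands with weight different from one turn. -/
theorem turn_of_ne_one (h0 : 0 < θ) (h1 : Ang θ) (hq : IsPolygon q) (hD : Encloses q D)
    (hA : A ∈ pcs ω D) (hw : wJ θ β q D k τ A ≠ 1) :
    ¬ IsLp D A ∧ (τ (hi q A) ≠ τ (lo q A) ∨ (lo q A < k ∧ k ≤ hi q A)) := by
  have h1_lt := h1.lt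
  have hs1 := sin_pos' h0 h1
  have hs2 := sin2_pos h0 h1
  have hc : 0 < Real.cos θ := Real.cos_pos_of_mem_Ioo ⟨by linarith [Real.pi_pos], by
    linarith [Real.pi_pos]⟩
  have hl : ¬ IsLp D A := fun hl => hw (wJ_lp hq hD hA hl hc.ne')
  refine ⟨hl, ?_⟩
  by_contra hn
  push Not at hn
  obtain ⟨hK, hF⟩ := hn
  have hF' : ¬ (lo q A < k ∧ k ≤ hi q A) := fun h => absurd (hF h.1) (by omega)
  have hK' : Kt q τ A = 0 := by unfold Kt; rw [hK, sub_self]
  have h := (feet hq hD hA hl).1.le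
  by_cases hC : IsCl D q k A
  · rw [wJ_cl hl h hF' hC, hK', Int.cast_zero, mul_zero, sub_zero, div_self hs2.ne'] at hw
    exact hw rfl
  · rw [wJ_ot hl h hF' hC, hK', Int.cast_zero, mul_zero, add_zero, div_self hs1.ne'] at hw
    exact hw rfl

/-- Lower bound for the strands inside of the free or the wired part from bounds of the weights. -/
theorem low_wJ_of (h0 : 0 < θ) (h1 : Ang θ) {a b : ℤ} {c : ℝ} (hc1 : c ≤ 1)
    (hc : ∀ K : ℤ, a ≤ K → K ≤ b →
      c ≤ Real.sin (2 * θ - θ / 2 * K) / Real.sin (2 * θ) ∧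
        c ≤ Real.sin (θ + θ / 2 * K) / Real.sin θ) (hq : IsPolygon q) (hD : Encloses q D)
    (hA : A ∈ pcs ω D) (hF : ¬ (lo q A < k ∧ k ≤ hi q A)) (hK0 : a ≤ Kt q τ A)
    (hK1 : Kt q τ A ≤ b) : c ≤ wJ θ β q D k τ A := by
  have h1_lt := h1.lt
  by_cases hl : IsLp D A
  · have hcos : 0 < Real.cos θ := Real.cos_pos_of_mem_Ioo ⟨by linarith [Real.pi_pos], by
      linarith [Real.pi_pos]⟩
    rwa [wJ_lp hq hD hA hl hcos.ne']
  · have h := (feet hq hD hA hl).1.le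
    by_cases hC : IsCl D q k A
    · rw [wJ_cl hl h hF hC]
      exact (hc _ hK0 hK1).1
    · rw [wJ_ot hl h hF hC]
      exact (hc _ hK0 hK1).2

/-- **Lower bound** for the strands inside of the free or the wired part, turning between `0` and
`2`. -/
theorem exists_low_wJ (h0 : 0 < θ) (h1 : Ang θ) : ∃ c : ℝ, 0 < c ∧ c ≤ 1 ∧
    ∀ {N : ℕ} {q : ZMod N → ℤ × ℤ} {D : Finset (ℤ × ℤ)} {ω : Cfg} {A : Finset Ed} {τ : ℕ → ℤ}
      {k : ℕ} {β : ℝ}, IsPolygon q → Encloses q D → A ∈ pcs ω D →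
      ¬ (lo q A < k ∧ k ≤ hi q A) → 0 ≤ Kt q τ A → Kt q τ A ≤ 2 → c ≤ wJ θ β q D k τ A := by
  obtain ⟨c, hc0, hc1, hc⟩ := exists_low h0 h1
  exact ⟨c, hc0, hc1, fun hq hD hA hF hK0 hK1 => low_wJ_of h0 h1 hc1 hc hq hD hA hF hK0 hK1⟩

/-- **Lower bound** for the strands inside of the free or the wired part, turning between `-1` and
`3`, for `θ < 2 π / 5`. -/
theorem exists_low_wJ5 (h0 : 0 < θ) (h1 : Ang θ) (h5 : 5 * θ < 2 * Real.pi) :
    ∃ c : ℝ, 0 < c ∧ c ≤ 1 ∧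
    ∀ {N : ℕ} {q : ZMod N → ℤ × ℤ} {D : Finset (ℤ × ℤ)} {ω : Cfg} {A : Finset Ed} {τ : ℕ → ℤ}
      {k : ℕ} {β : ℝ}, IsPolygon q → Encloses q D → A ∈ pcs ω D →
      ¬ (lo q A < k ∧ k ≤ hi q A) → -1 ≤ Kt q τ A → Kt q τ A ≤ 3 → c ≤ wJ θ β q D k τ A := by
  obtain ⟨c, hc0, hc1, hc⟩ := exists_low5 h0 h1 h5
  exact ⟨c, hc0, hc1, fun hq hD hA hF hK0 hK1 => low_wJ_of h0 h1 hc1 hc hq hD hA hF hK0 hK1⟩

/-- **A strand with weight different from one is local or large.** -/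
theorem large_of_ne_one (h0 : 0 < θ) (h1 : Ang θ) (hG : GeoN n N q τ)
    (hq : IsPolygon q) (hD : Encloses q D) (hA : A ∈ pcs ω D) (hw : wJ θ β q D k τ A ≠ 1) {r : ℤ}
    (hr : r ≤ n)
    (hout : ∀ j, j < N → Spe τ k j → ¬ ∀ e ∈ A, hdv e ∈ FK.Bq (q (j : ZMod N)) r) :
    ∃ e ∈ A, ∃ e' ∈ A, (r : ℝ) / 16 ≤ nm (hdv e - hdv e') := by
  have h1_lt := h1.lt
  obtain ⟨hl, hK⟩ := turn_of_ne_one h0 h1 hq hD hA hw
  obtain ⟨f, hf, f', hf', h2⟩ := one_le_diam hA hl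
  by_cases hr16 : r ≤ 16
  · refine ⟨f, hf, f', hf', ?_⟩
    have e1 : (r : ℝ) ≤ 16 := by exact_mod_cast hr16
    have e2 : (1 : ℝ) ≤ nm (hdv f - hdv f') := by exact_mod_cast h2
    linarith
  · push Not at hr16
    by_contra hc
    push Not at hc
    -- all edges are close to each other
    have hd : ∀ e ∈ A, ∀ e' ∈ A, nm (hdv e - hdv e') ≤ r / 16 := by
      intro e he e' he'
      have h3 := hc e he e' he'
      have h4 : (16 * nm (hdv e - hdv e') : ℤ) < r := by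
        have : ((16 * nm (hdv e - hdv e') : ℤ) : ℝ) < (r : ℝ) := by
          push_cast
          linarith
        exact_mod_cast this
      omega
    obtain ⟨j, j1, j2, j3⟩ := local_of_small hG hq hD hA hl hK (m := r / 16) (by omega) hd
    refine hout j j1 j2 fun e he => ?_
    have h3 := j3 e he
    have h4 : nm (hdv e - q (j : ZMod N)) < r := by omega
    unfold FK.Bq
    unfold nm at h4
    rw [max_lt_iff, abs_lt, abs_lt] at h4
    simp only [Prod.fst_sub, Prod.snd_sub] at h4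
    rw [Finset.mem_product, Finset.mem_Ico, Finset.mem_Ico]
    omega

end Vale.Agent.P167.N.H601.LG
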